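import Mathlib
import Vale.Agent.P245.Gauss

/-!
A sub-coupling of two sets within a given distance, when they have no large separated subsets.
-/

open MeasureTheory Set
open scoped ENNReal RealInnerProductSpace

namespace Vale.Agent.P245.Boot

/-- Greedy maximal matching of two finite mass distributions along allowed pairs. -/
lemma greedy {ι : Type*} [Fintype ι] [DecidableEq ι] (P : Finset (ι × ι)) {α β : ι → ℝ}
    (hα : ∀ i, 0 ≤ α i) (hβ : ∀ j, 0 ≤ β j) :
    ∃ w : ι → ι → ℝ, (∀ i j, 0 ≤ w i j) ∧ (∀ i j, (i, j) ∉ P → w i j = 0) ∧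
      (∀ i, ∑ j, w i j ≤ α i) ∧ (∀ j, ∑ i, w i j ≤ β j) ∧
      ∀ i j, (i, j) ∈ P → ∑ j', w i j' = α i ∨ ∑ i', w i' j = β j := by
  induction P using Finset.induction_on with
  | empty => exact ⟨fun _ _ => 0, fun _ _ => le_rfl, fun _ _ _ => rfl, fun i => by simpa using hα i,
      fun j => by simpa using hβ j, fun i j h => by simp at h⟩
  | insert e P he ih =>
    obtain ⟨w, hw0, hwP, hr, hc, hsat⟩ := ih
    obtain ⟨a, b⟩ := e
    set d := min (α a - ∑ j, w a j) (β b - ∑ i, w i b) with hd
    have hd0 : 0 ≤ d := le_min (by linarith [hr a]) (by linarith [hc b])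
    set u := fun i j => if i = a ∧ j = b then d else 0 with hu
    have hu0 : ∀ i j, 0 ≤ u i j := fun i j => by simp only [hu]; split_ifs <;> simp [hd0]
    have hrow : ∀ i, ∑ j, u i j = if i = a then d else 0 := fun i => by
      simp only [hu]
      by_cases hi : i = a <;> simp [hi]
    have hcol : ∀ j, ∑ i, u i j = if j = b then d else 0 := fun j => by
      simp only [hu]
      by_cases hj : j = b <;> simp [hj]
    refine ⟨fun i j => w i j + u i j, fun i j => add_nonneg (hw0 i j) (hu0 i j), fun i j h => ?_,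
      fun i => ?_, fun j => ?_, fun i j h => ?_⟩
    · rw [Finset.mem_insert, not_or] at h
      simp only [hwP i j h.2, zero_add, hu]
      rw [if_neg fun h' => h.1 (by rw [h'.1, h'.2])]
    · rw [Finset.sum_add_distrib, hrow]
      split_ifs with hi
      · subst hi; linarith [min_le_left (α i - ∑ j, w i j) (β b - ∑ i', w i' b)]
      · simpa using hr i
    · rw [Finset.sum_add_distrib, hcol]
      split_ifs with hj
      · subst hj; linarith [min_le_right (α a - ∑ j', w a j') (β j - ∑ i, w i j)]
      · simpa using hc j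
    · rw [Finset.sum_add_distrib, Finset.sum_add_distrib, hrow, hcol]
      rcases Finset.mem_insert.1 h with h | h
      · rw [Prod.mk.injEq] at h
        rw [if_pos h.1, if_pos h.2, h.1, h.2]
        rcases le_total (α a - ∑ j, w a j) (β b - ∑ i, w i b) with h' | h'
        · left; rw [hd, min_eq_left h']; ring
        · right; rw [hd, min_eq_right h']; ring
      · rcases hsat i j h with h' | h'
        · left
          refine le_antisymm ?_ (by split_ifs <;> linarith)
          split_ifs with hi
          · subst hi; linarith [min_le_left (α i - ∑ j, w i j) (β b - ∑ i', w i' b)]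
          · linarith
        · right
          refine le_antisymm ?_ (by split_ifs <;> linarith)
          split_ifs with hj
          · subst hj; linarith [min_le_right (α a - ∑ j', w a j') (β j - ∑ i, w i j)]
          · linarith

variable {n : ℕ}

/-- The sub-coupling. -/
theorem exists_coupling {μ : Measure (Euc n)} [IsProbabilityMeasure μ] {A B : Set (Euc n)}
    (hA : MeasurableSet A) (hB : MeasurableSet B) {k : ℝ} (hAk : A ⊆ Metric.closedBall 0 k)
    (hBk : B ⊆ Metric.closedBall 0 k) (hA0 : 0 < μ.real A) (hB0 : 0 < μ.real B) {R : ℝ}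
    (hsep : ∀ A' B' : Set (Euc n), MeasurableSet A' → MeasurableSet B' → A' ⊆ A → B' ⊆ B →
      μ.real A / 2 ≤ μ.real A' → μ.real B / 2 ≤ μ.real B' → ∃ x ∈ A', ∃ y ∈ B', ‖x - y‖ < R) :
    ∃ κ : Measure (Euc n × Euc n), κ univ ≤ 1 ∧ 1 / 2 ≤ κ univ ∧
      κ.map Prod.fst ≤ ENNReal.ofReal (μ.real A)⁻¹ • μ.restrict A ∧
      κ.map Prod.snd ≤ ENNReal.ofReal (μ.real B)⁻¹ • μ.restrict B ∧
      ∀ᵐ p ∂κ, ‖p.2 - p.1‖ ≤ R + 2 := by
  classical
  obtain ⟨t, -, htfin, htcov⟩ := (isCompact_closedBall (0 : Euc n) k).finite_cover_balls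
    (show (0 : ℝ) < 1 / 2 by norm_num)
  set N := htfin.toFinset.card with hN
  set cN : Fin N → Euc n := fun i => (htfin.toFinset.equivFin.symm i : Euc n) with hcN
  set C : Fin N → Set (Euc n) := disjointed fun i => Metric.ball (cN i) (1 / 2) with hC
  have hCm : ∀ i, MeasurableSet (C i) := fun i =>
    disjointedRec (fun {_} _ ht => ht.diff measurableSet_ball) measurableSet_ball
  have hCd : Pairwise (Function.onFun Disjoint C) := disjoint_disjointed _
  have hCdiam : ∀ i, ∀ x ∈ C i, ∀ y ∈ C i, ‖x - y‖ ≤ 1 := fun i x hx y hy => by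
    have h1 := disjointed_subset _ i hx
    have h2 := disjointed_subset _ i hy
    rw [Metric.mem_ball] at h1 h2
    have := dist_triangle_right x y (cN i)
    rw [← dist_eq_norm]
    linarith
  have hCcov : Metric.closedBall (0 : Euc n) k ⊆ ⋃ i, C i := by
    rw [hC, iUnion_disjointed]
    intro x hx
    obtain ⟨c, hc, hxc⟩ := mem_iUnion₂.1 (htcov hx)
    refine mem_iUnion.2 ⟨htfin.toFinset.equivFin ⟨c, htfin.mem_toFinset.2 hc⟩, ?_⟩
    simpa [hcN] using hxc
  set SA := fun i => A ∩ C i with hSA
  set SB := fun i => B ∩ C i with hSB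
  have dA : Pairwise (Function.onFun Disjoint SA) := fun i j hij =>
    (hCd hij).mono inter_subset_right inter_subset_right
  have dB : Pairwise (Function.onFun Disjoint SB) := fun i j hij =>
    (hCd hij).mono inter_subset_right inter_subset_right
  have uA : (⋃ i, SA i) = A := by
    rw [← inter_iUnion, inter_eq_left]; exact hAk.trans hCcov
  have uB : (⋃ i, SB i) = B := by
    rw [← inter_iUnion, inter_eq_left]; exact hBk.trans hCcov
  set a := fun i => μ.real (SA i) / μ.real A with ha
  set b := fun j => μ.real (SB j) / μ.real B with hb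
  have ha0 : ∀ i, 0 ≤ a i := fun i => div_nonneg measureReal_nonneg hA0.le
  have hb0 : ∀ j, 0 ≤ b j := fun j => div_nonneg measureReal_nonneg hB0.le
  have hsumA : ∑ i, μ.real (SA i) = μ.real A := by
    conv_rhs => rw [← uA]
    rw [measureReal_iUnion_fintype dA (fun i => hA.inter (hCm i))]
  have hsumB : ∑ i, μ.real (SB i) = μ.real B := by
    conv_rhs => rw [← uB]
    rw [measureReal_iUnion_fintype dB (fun i => hB.inter (hCm i))]
  have hsa : ∑ i, a i = 1 := by rw [ha, ← Finset.sum_div, hsumA, div_self hA0.ne']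
  have hsb : ∑ i, b i = 1 := by rw [hb, ← Finset.sum_div, hsumB, div_self hB0.ne']
  set P : Finset (Fin N × Fin N) :=
    Finset.univ.filter fun e => ∃ x ∈ SA e.1, ∃ y ∈ SB e.2, ‖x - y‖ < R with hP
  obtain ⟨w, hw0, hwP, hr, hc, hsat⟩ := greedy P ha0 hb0
  set m := ∑ i, ∑ j, w i j with hm
  have hm1 : m ≤ 1 := le_of_le_of_eq (Finset.sum_le_sum fun i _ => hr i) hsa
  -- large unmatched parts would be separated
  have hm2 : 1 / 2 ≤ m := by
    by_contra hlt
    push Not at hlt
    set IA := Finset.univ.filter fun i => ∑ j, w i j ≠ a i with hIA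
    set IB := Finset.univ.filter fun j => ∑ i, w i j ≠ b j with hIB
    have hmA : μ.real A / 2 ≤ μ.real (⋃ i ∈ IA, SA i) := by
      rw [measureReal_biUnion_finset (fun i _ j _ hij => dA hij) (fun i _ => hA.inter (hCm i))]
      have h1 : (1 : ℝ) - m ≤ ∑ i ∈ IA, a i := by
        rw [← hsa, hm, ← Finset.sum_sub_distrib, hIA, Finset.sum_filter]
        refine Finset.sum_le_sum fun i _ => ?_
        split_ifs with hi
        · linarith [Finset.sum_nonneg fun j (_ : j ∈ Finset.univ) => hw0 i j]
        · rw [not_not] at hi; linarith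
      have h2 : ∑ i ∈ IA, a i = (∑ i ∈ IA, μ.real (SA i)) / μ.real A := by rw [ha, Finset.sum_div]
      rw [h2, le_div_iff₀ hA0] at h1
      nlinarith
    have hmB : μ.real B / 2 ≤ μ.real (⋃ i ∈ IB, SB i) := by
      rw [measureReal_biUnion_finset (fun i _ j _ hij => dB hij) (fun i _ => hB.inter (hCm i))]
      have h1 : (1 : ℝ) - m ≤ ∑ i ∈ IB, b i := by
        rw [← hsb, hm, Finset.sum_comm, ← Finset.sum_sub_distrib, hIB, Finset.sum_filter]
        refine Finset.sum_le_sum fun i _ => ?_
        split_ifs with hi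
        · linarith [Finset.sum_nonneg fun j (_ : j ∈ Finset.univ) => hw0 j i]
        · rw [not_not] at hi; linarith
      have h2 : ∑ i ∈ IB, b i = (∑ i ∈ IB, μ.real (SB i)) / μ.real B := by rw [hb, Finset.sum_div]
      rw [h2, le_div_iff₀ hB0] at h1
      nlinarith
    obtain ⟨x, hx, y, hy, hxy⟩ := hsep _ _
      (Finset.measurableSet_biUnion _ fun i _ => hA.inter (hCm i))
      (Finset.measurableSet_biUnion _ fun i _ => hB.inter (hCm i))
      (iUnion₂_subset fun i _ => inter_subset_left) (iUnion₂_subset fun i _ => inter_subset_left)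
      hmA hmB
    obtain ⟨i, hi, hxi⟩ := mem_iUnion₂.1 hx
    obtain ⟨j, hj, hyj⟩ := mem_iUnion₂.1 hy
    rw [hIA, Finset.mem_filter] at hi
    rw [hIB, Finset.mem_filter] at hj
    rcases hsat i j (by
      rw [hP, Finset.mem_filter]
      exact ⟨Finset.mem_univ _, x, hxi, y, hyj, hxy⟩) with h | h
    · exact hi.2 h
    · exact hj.2 h
  -- the coupling
  set κ := ∑ e : Fin N × Fin N, ENNReal.ofReal (w e.1 e.2 / (μ.real (SA e.1) * μ.real (SB e.2)))
    • (μ.restrict (SA e.1)).prod (μ.restrict (SB e.2)) with hκ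
  have hwA : ∀ i j, μ.real (SA i) = 0 → w i j = 0 := fun i j h => by
    have h1 := (Finset.single_le_sum (fun j' _ => hw0 i j') (Finset.mem_univ j)).trans (hr i)
    have : a i = 0 := by simp [ha, h]
    linarith [hw0 i j]
  have hwB : ∀ i j, μ.real (SB j) = 0 → w i j = 0 := fun i j h => by
    have h1 := (Finset.single_le_sum (fun i' _ => hw0 i' j) (Finset.mem_univ i)).trans (hc j)
    have : b j = 0 := by simp [hb, h]
    linarith [hw0 i j]
  have e2 : ∀ i j, ENNReal.ofReal (w i j / (μ.real (SA i) * μ.real (SB j))) * μ (SB j)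
      = ENNReal.ofReal (w i j / μ.real (SA i)) := fun i j => by
    rw [← ofReal_measureReal (μ := μ) (s := SB j),
      ← ENNReal.ofReal_mul (div_nonneg (hw0 i j) (mul_nonneg measureReal_nonneg measureReal_nonneg))]
    congr 1
    rcases eq_or_ne (μ.real (SB j)) 0 with h | h
    · simp [hwB i j h]
    · field_simp
  have e1 : ∀ i j, ENNReal.ofReal (w i j / (μ.real (SA i) * μ.real (SB j))) * μ (SA i)
      = ENNReal.ofReal (w i j / μ.real (SB j)) := fun i j => by
    rw [← ofReal_measureReal (μ := μ) (s := SA i),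
      ← ENNReal.ofReal_mul (div_nonneg (hw0 i j) (mul_nonneg measureReal_nonneg measureReal_nonneg))]
    congr 1
    rcases eq_or_ne (μ.real (SA i)) 0 with h | h
    · simp [hwA i j h]
    · field_simp
  have huniv : κ univ = ENNReal.ofReal m := by
    rw [hκ, Measure.finsetSum_apply, hm, ← Fintype.sum_prod_type',
      ENNReal.ofReal_sum_of_nonneg fun e _ => hw0 _ _]
    refine Finset.sum_congr rfl fun e _ => ?_
    rw [Measure.smul_apply, ← univ_prod_univ, Measure.prod_prod, Measure.restrict_apply_univ,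
      Measure.restrict_apply_univ, smul_eq_mul, mul_left_comm, e2, mul_comm,
      ← ofReal_measureReal (μ := μ) (s := SA e.1),
      ← ENNReal.ofReal_mul (div_nonneg (hw0 _ _) measureReal_nonneg)]
    congr 1
    rcases eq_or_ne (μ.real (SA e.1)) 0 with h | h
    · simp [hwA _ e.2 h]
    · field_simp
  refine ⟨κ, ?_, ?_, ?_, ?_, ?_⟩
  · rw [huniv, ← ENNReal.ofReal_one]; exact ENNReal.ofReal_le_ofReal hm1
  · rw [huniv, show (1 / 2 : ℝ≥0∞) = ENNReal.ofReal (1 / 2) by
      rw [ENNReal.ofReal_div_of_pos two_pos, ENNReal.ofReal_one, ENNReal.ofReal_ofNat]]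
    exact ENNReal.ofReal_le_ofReal hm2
  · refine Measure.le_iff.2 fun S hS => ?_
    rw [Measure.map_apply measurable_fst hS, hκ, Measure.finsetSum_apply, Measure.smul_apply,
      Measure.restrict_apply hS, smul_eq_mul, Fintype.sum_prod_type]
    calc _ = ∑ i, ∑ j, ENNReal.ofReal (w i j / μ.real (SA i)) * μ (S ∩ SA i) := by
          refine Finset.sum_congr rfl fun i _ => Finset.sum_congr rfl fun j _ => ?_
          rw [Measure.smul_apply, ← prod_univ, Measure.prod_prod, Measure.restrict_apply hS,
            Measure.restrict_apply_univ, smul_eq_mul, mul_left_comm, e2, mul_comm]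
      _ ≤ ∑ i, ENNReal.ofReal (μ.real A)⁻¹ * μ (S ∩ SA i) := by
          refine Finset.sum_le_sum fun i _ => ?_
          rw [← Finset.sum_mul, ← ENNReal.ofReal_sum_of_nonneg
            (fun j _ => div_nonneg (hw0 i j) measureReal_nonneg), ← Finset.sum_div]
          refine mul_le_mul' (ENNReal.ofReal_le_ofReal ?_) le_rfl
          rcases eq_or_ne (μ.real (SA i)) 0 with h | h
          · simp [h, hA0.le]
          · rw [div_le_iff₀ (lt_of_le_of_ne measureReal_nonneg (Ne.symm h))]
            exact (hr i).trans_eq (by simp only [ha]; ring)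
      _ = _ := by
          rw [← Finset.mul_sum, ← uA, inter_iUnion, measure_iUnion
            (fun i j hij => (dA hij).mono inter_subset_right inter_subset_right)
            (fun i => hS.inter (hA.inter (hCm i))), tsum_fintype]
  · refine Measure.le_iff.2 fun S hS => ?_
    rw [Measure.map_apply measurable_snd hS, hκ, Measure.finsetSum_apply, Measure.smul_apply,
      Measure.restrict_apply hS, smul_eq_mul, Fintype.sum_prod_type, Finset.sum_comm]
    calc _ = ∑ j, ∑ i, ENNReal.ofReal (w i j / μ.real (SB j)) * μ (S ∩ SB j) := by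
          refine Finset.sum_congr rfl fun j _ => Finset.sum_congr rfl fun i _ => ?_
          rw [Measure.smul_apply, ← univ_prod, Measure.prod_prod, Measure.restrict_apply hS,
            Measure.restrict_apply_univ, smul_eq_mul, ← mul_assoc, e1]
      _ ≤ ∑ j, ENNReal.ofReal (μ.real B)⁻¹ * μ (S ∩ SB j) := by
          refine Finset.sum_le_sum fun j _ => ?_
          rw [← Finset.sum_mul, ← ENNReal.ofReal_sum_of_nonneg
            (fun i _ => div_nonneg (hw0 i j) measureReal_nonneg), ← Finset.sum_div]
          refine mul_le_mul' (ENNReal.ofReal_le_ofReal ?_) le_rfl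
          rcases eq_or_ne (μ.real (SB j)) 0 with h | h
          · simp [h, hB0.le]
          · rw [div_le_iff₀ (lt_of_le_of_ne measureReal_nonneg (Ne.symm h))]
            exact (hc j).trans_eq (by simp only [hb]; ring)
      _ = _ := by
          rw [← Finset.mul_sum, ← uB, inter_iUnion, measure_iUnion
            (fun i j hij => (dB hij).mono inter_subset_right inter_subset_right)
            (fun i => hS.inter (hB.inter (hCm i))), tsum_fintype]
  · rw [ae_iff]
    set Z := {p : Euc n × Euc n | ¬‖p.2 - p.1‖ ≤ R + 2} with hZ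
    have hZm : MeasurableSet Z := (measurableSet_le (f := fun p : Euc n × Euc n => ‖p.2 - p.1‖) (by fun_prop) measurable_const).compl
    rw [hκ, Measure.finsetSum_apply]
    refine Finset.sum_eq_zero fun e _ => ?_
    rw [Measure.smul_apply, smul_eq_mul, Measure.prod_restrict,
      Measure.restrict_apply hZm]
    rcases eq_or_ne (w e.1 e.2) 0 with h | h
    · simp [h]
    have hmem : (e.1, e.2) ∈ P := by by_contra hn; exact h (hwP _ _ hn)
    rw [hP, Finset.mem_filter] at hmem
    obtain ⟨-, x, hx, y, hy, hxy⟩ := hmem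
    refine mul_eq_zero_of_right _ (measure_mono_null ?_ measure_empty)
    rintro ⟨p, q⟩ ⟨hpq, hp, hq⟩
    refine absurd ?_ hpq
    have h1 := hCdiam e.1 x hx.2 p hp.2
    have h2 := hCdiam e.2 y hy.2 q hq.2
    calc ‖q - p‖ = ‖(q - y) + (y - x) + (x - p)‖ := by congr 1; abel
      _ ≤ ‖q - y‖ + ‖y - x‖ + ‖x - p‖ := norm_add₃_le
      _ ≤ R + 2 := by rw [norm_sub_rev q y, norm_sub_rev y x]; linarith

end Vale.Agent.P245.Boot
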