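import Mathlib
import Vale.Agent.P245.Channel

/-!
Moving the tilt along the Gaussian channel: the cost of a shift, and averaged bounds over paths
`g + √t y`.
-/

open MeasureTheory Set
open scoped ENNReal RealInnerProductSpace

namespace Vale.Agent.P245.Boot

variable {n : ℕ}

/-- The Gaussian measure under a translation. -/
lemma gam_shift (w : Euc n) {H : Euc n → ℝ≥0∞} (hH : Measurable H) :
    ∫⁻ z, H (z + w) ∂(gam n)
      = ∫⁻ z, ENNReal.ofReal (Real.exp (⟪z, w⟫ - ‖w‖ ^ 2 / 2)) * H z ∂(gam n) := by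
  rw [gam_eq (k := fun z => H (z + w)) (hH.comp (measurable_add_const w)), gam_eq (by fun_prop)]
  congr 1
  rw [← lintegral_add_right_eq_self
    (fun x => ENNReal.ofReal (Real.exp (-‖x‖ ^ 2 / 2))
      * (ENNReal.ofReal (Real.exp (⟪x, w⟫ - ‖w‖ ^ 2 / 2)) * H x)) w]
  refine lintegral_congr fun x => ?_
  rw [← mul_assoc, ← ENNReal.ofReal_mul (Real.exp_pos _).le, ← Real.exp_add, norm_add_sq_real,
    inner_add_left, real_inner_self_eq_norm_sq]
  show ENNReal.ofReal (Real.exp (-‖x‖ ^ 2 / 2)) * H (x + w) = _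
  ring_nf

/-- The tilt weight is the density of a translated Gaussian. -/
lemma gam_path {t : ℝ} (ht : 0 ≤ t) (y : Euc n) {H : Euc n → ℝ≥0∞} (hH : Measurable H) :
    ∫⁻ g, H (g + Real.sqrt t • y) ∂(gam n) = ∫⁻ z, ENNReal.ofReal (wt t z y) * H z ∂(gam n) := by
  rw [gam_shift _ hH]
  refine lintegral_congr fun z => ?_
  rw [wt, real_inner_smul_right, norm_smul, mul_pow, Real.norm_eq_abs, sq_abs, Real.sq_sqrt ht]

variable {μ : Measure (Euc n)} [IsProbabilityMeasure μ] {t : ℝ}

lemma wmass_ne_top (ht : 0 ≤ t) (S : Set (Euc n)) (z : Euc n) : wmass μ t S z ≠ ⊤ := by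
  refine ne_top_of_le_ne_top (b := ENNReal.ofReal (Real.exp (‖z‖ ^ 2 / 2))) ENNReal.ofReal_ne_top ?_
  calc wmass μ t S z ≤ ∫⁻ _x in S, ENNReal.ofReal (Real.exp (‖z‖ ^ 2 / 2)) ∂μ :=
        lintegral_mono fun x => ENNReal.ofReal_le_ofReal (wt_le ht z x)
    _ ≤ _ := by
        rw [setLIntegral_const]
        exact mul_le_of_le_one_right zero_le prob_le_one

/-- If a short step backwards costs little, so does the step forwards. -/
lemma move (ht : 0 ≤ t) {ε Q : ℝ} (hε : 0 < ε) (S : Set (Euc n)) (z v : Euc n)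
    (hG : wmass μ t S (z - (ε * Real.sqrt t) • v) ≤ ENNReal.ofReal (Real.exp Q) * wmass μ t S z) :
    ENNReal.ofReal (Real.exp (-(Q / ε))) * wmass μ t S z ≤ wmass μ t S (z + Real.sqrt t • v) := by
  set U := wmass μ t S z with hU
  set U' := wmass μ t S (z + Real.sqrt t • v) with hU'
  set G := wmass μ t S (z - (ε * Real.sqrt t) • v) with hGdef
  set p := ε / (1 + ε) with hp
  set q := 1 / (1 + ε) with hq
  have hp0 : 0 < p := by positivity
  have hq0 : 0 < q := by positivity
  have hpq : p + q = 1 := by rw [hp, hq]; field_simp; ring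
  have e : ∀ x, ENNReal.ofReal (wt t z x) = ENNReal.ofReal (wt t (z + Real.sqrt t • v) x) ^ p
      * ENNReal.ofReal (wt t (z - (ε * Real.sqrt t) • v) x) ^ q := by
    intro x
    rw [ENNReal.ofReal_rpow_of_pos (wt_pos _ _ _), ENNReal.ofReal_rpow_of_pos (wt_pos _ _ _),
      ← ENNReal.ofReal_mul (Real.rpow_nonneg (wt_pos _ _ _).le _), wt, wt, wt, ← Real.exp_mul, ← Real.exp_mul, ← Real.exp_add]
    congr 2
    rw [inner_add_left, inner_sub_left, real_inner_smul_left, real_inner_smul_left, hp, hq]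
    field_simp
    ring
  have hm : ∀ w : Euc n, AEMeasurable (fun x => ENNReal.ofReal (wt t w x)) (μ.restrict S) :=
    fun w => ((measurable_wt t).comp measurable_prodMk_left).ennreal_ofReal.aemeasurable
  have h : U ≤ U' ^ p * G ^ q := by
    rw [hU, hU', hGdef, wmass, wmass, wmass]
    simp only [e]
    exact ENNReal.lintegral_mul_norm_pow_le (hm _) (hm _) hp0.le hq0.le hpq
  have hUt : U ≠ ⊤ := wmass_ne_top ht S z
  have hU't : U' ≠ ⊤ := wmass_ne_top ht S _
  rcases eq_or_ne U 0 with h0 | h0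
  · simp [h0]
  set u := U.toReal with hu
  set u' := U'.toReal with hu'
  have hu0 : 0 < u := ENNReal.toReal_pos h0 hUt
  have h2 : u ≤ u' ^ p * (Real.exp Q * u) ^ q := by
    have h3 := h.trans (mul_le_mul' le_rfl (ENNReal.rpow_le_rpow hG hq0.le))
    have hne : U' ^ p * (ENNReal.ofReal (Real.exp Q) * U) ^ q ≠ ⊤ :=
      ENNReal.mul_ne_top (ENNReal.rpow_ne_top_of_nonneg hp0.le hU't)
        (ENNReal.rpow_ne_top_of_nonneg hq0.le (ENNReal.mul_ne_top ENNReal.ofReal_ne_top hUt))
    have h4 := ENNReal.toReal_mono hne h3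
    rwa [ENNReal.toReal_mul, ← ENNReal.toReal_rpow, ← ENNReal.toReal_rpow, ENNReal.toReal_mul,
      ENNReal.toReal_ofReal (Real.exp_pos _).le] at h4
  have hu'0 : 0 < u' := by
    rcases (ENNReal.toReal_nonneg : 0 ≤ u').eq_or_lt with h3 | h3
    · have h3' : u' = 0 := h3.symm
      rw [h3', Real.zero_rpow hp0.ne', zero_mul] at h2; linarith
    · exact h3
  have h5 : Real.log u ≤ p * Real.log u' + q * (Q + Real.log u) := by
    have := Real.log_le_log hu0 h2
    rwa [Real.log_mul (by positivity) (by positivity), Real.log_rpow hu'0,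
      Real.log_rpow (by positivity), Real.log_mul (Real.exp_ne_zero _) hu0.ne', Real.log_exp] at this
  have h6 : -(Q / ε) + Real.log u ≤ Real.log u' := by
    have e1 : p * (-(Q / ε) + Real.log u) ≤ p * Real.log u' := by
      have e2 : p * (Q / ε) = q * Q := by rw [hp, hq]; field_simp
      have e3 : p * Real.log u + q * Real.log u = Real.log u := by rw [← add_mul, hpq, one_mul]
      linarith
    exact le_of_mul_le_mul_left e1 hp0
  have h7 : Real.exp (-(Q / ε)) * u ≤ u' := by
    calc Real.exp (-(Q / ε)) * u = Real.exp (-(Q / ε) + Real.log u) := by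
          rw [Real.exp_add, Real.exp_log hu0]
      _ ≤ Real.exp (Real.log u') := Real.exp_le_exp.2 h6
      _ = u' := Real.exp_log hu'0
  rw [← ENNReal.ofReal_toReal hUt, ← ENNReal.ofReal_toReal hU't,
    ← ENNReal.ofReal_mul (Real.exp_pos _).le]
  exact ENNReal.ofReal_le_ofReal h7

/-- Along paths ending in `S`, the tilted probability of `S` is seldom small. -/
lemma avg_small (ht : 0 ≤ t) {S : Set (Euc n)} {ν : Measure (Euc n)} {k : ℝ≥0∞}
    (hν : ν ≤ k • μ.restrict S) (c : ℝ≥0∞) :
    ∫⁻ y, (∫⁻ g, {z | wmass μ t S z < c * wmass μ t univ z}.indicator (fun _ => (1 : ℝ≥0∞))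
        (g + Real.sqrt t • y) ∂(gam n)) ∂ν ≤ k * c := by
  have hbad : MeasurableSet {z | wmass μ t S z < c * wmass μ t univ z} :=
    measurableSet_lt (measurable_wmass t S) ((measurable_wmass t univ).const_mul c)
  refine (lintegral_mono' hν le_rfl).trans ?_
  rw [lintegral_smul_measure, smul_eq_mul]
  refine mul_le_mul' le_rfl ?_
  simp only [gam_path ht _ (measurable_const.indicator hbad)]
  rw [lintegral_lintegral_swap]
  swap
  · exact (((measurable_wt t).comp measurable_swap).ennreal_ofReal.mul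
      ((measurable_const.indicator hbad).comp measurable_snd)).aemeasurable
  calc ∫⁻ z, ∫⁻ y in S, ENNReal.ofReal (wt t z y)
        * {z | wmass μ t S z < c * wmass μ t univ z}.indicator (fun _ => (1 : ℝ≥0∞)) z ∂μ ∂(gam n)
      ≤ ∫⁻ z, c * wmass μ t univ z ∂(gam n) := by
        refine lintegral_mono fun z => ?_
        have hm : Measurable fun y => ENNReal.ofReal (wt t z y) :=
          ((measurable_wt t).comp measurable_prodMk_left).ennreal_ofReal
        rw [lintegral_mul_const _ hm]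
        by_cases hz : wmass μ t S z < c * wmass μ t univ z
        · rw [indicator_of_mem (show z ∈ {z | wmass μ t S z < c * wmass μ t univ z} from hz), mul_one]
          exact hz.le
        · simp [indicator_of_notMem (show z ∉ {z | wmass μ t S z < c * wmass μ t univ z} from hz)]
    _ = c := by rw [lintegral_const_mul _ (measurable_wmass t univ), lintegral_wmass ht,
        measure_univ, mul_one]

lemma two_mul_le (a b : ℝ≥0∞) : a * b ≤ a * a + b * b := by
  rcases le_total a b with h | h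
  · exact (mul_le_mul' h le_rfl).trans le_add_self
  · exact (mul_le_mul' le_rfl h).trans le_self_add

/-- The pointwise bound behind `avg_move`. -/
lemma step_le (ht : 0 ≤ t) (S : Set (Euc n)) (ε : ℝ) (y v : Euc n) :
    ∫⁻ g, wmass μ t S (g + Real.sqrt t • y - (ε * Real.sqrt t) • v)
        * (wmass μ t S (g + Real.sqrt t • y))⁻¹ ∂(gam n)
      ≤ (∫⁻ x in S, ENNReal.ofReal (Real.exp (2 * t * ⟪y, x⟫)) ∂μ)
        + (∫⁻ x in S, ENNReal.ofReal (Real.exp (-(4 * ε * t * ⟪v, x⟫))) ∂μ)
        + ∫⁻ z, ENNReal.ofReal (wt t z y) * (wmass μ t S z)⁻¹ ∂(gam n) := by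
  set u := fun z => wmass μ t S z with hu
  have hum : Measurable u := measurable_wmass t S
  set a := fun (x z : Euc n) => ENNReal.ofReal (wt t z x) with ha
  set f := fun (x : Euc n) => ENNReal.ofReal (Real.exp (-(2 * ε * t * ⟪v, x⟫))) with hf
  have ham : ∀ z, Measurable fun x => a x z := fun z =>
    ((measurable_wt t).comp measurable_prodMk_left).ennreal_ofReal
  have haz : ∀ x, Measurable (a x) := fun x => by simp only [ha, wt]; fun_prop
  set g1 := fun (x : Euc n) => ENNReal.ofReal (Real.exp (-(ε * t * ⟪v, x⟫))) with hg1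
  have hstep : ∀ (z x : Euc n), a x (z - (ε * Real.sqrt t) • v) = a x z * g1 x := by
    intro z x
    simp only [ha, hg1]
    rw [← ENNReal.ofReal_mul (wt_pos _ _ _).le, wt, wt, ← Real.exp_add, inner_sub_left,
      real_inner_smul_left, mul_sub, ← mul_assoc, mul_comm (Real.sqrt t) (ε * Real.sqrt t),
      mul_assoc ε, Real.mul_self_sqrt ht]
    ring_nf
  have hH : Measurable fun z => u (z - (ε * Real.sqrt t) • v) * (u z)⁻¹ :=
    (hum.comp (measurable_id.sub_const _)).mul hum.inv
  rw [gam_path ht y hH]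
  have mf : Measurable f := by simp only [hf]; fun_prop
  calc ∫⁻ z, a y z * (u (z - (ε * Real.sqrt t) • v) * (u z)⁻¹) ∂(gam n)
      ≤ ∫⁻ z, ((∫⁻ x in S, a y z * a x z * f x ∂μ) + a y z * (u z)⁻¹) ∂(gam n) := by
        refine lintegral_mono fun z => ?_
        calc a y z * (u (z - (ε * Real.sqrt t) • v) * (u z)⁻¹)
            = ∫⁻ x in S, a y z * (u z)⁻¹ * a x (z - (ε * Real.sqrt t) • v) ∂μ := by
              rw [lintegral_const_mul _ (ham _)]
              show _ = a y z * (u z)⁻¹ * u (z - (ε * Real.sqrt t) • v)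
              ring
          _ ≤ ∫⁻ x in S, (a y z * a x z * f x + a y z * ((u z)⁻¹ * (u z)⁻¹) * a x z) ∂μ := by
              refine lintegral_mono fun x => ?_
              have e : f x = g1 x * g1 x := by
                simp only [hf, hg1]
                rw [← ENNReal.ofReal_mul (Real.exp_pos _).le, ← Real.exp_add]
                ring_nf
              rw [hstep, e]
              calc a y z * (u z)⁻¹ * (a x z * g1 x) = a y z * a x z * (g1 x * (u z)⁻¹) := by ring
                _ ≤ a y z * a x z * (g1 x * g1 x + (u z)⁻¹ * (u z)⁻¹) :=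
                    mul_le_mul' le_rfl (two_mul_le _ _)
                _ = _ := by ring
          _ ≤ _ := by
              have mm : Measurable fun x => a y z * a x z * f x := ((ham z).const_mul _).fun_mul mf
              rw [lintegral_add_left mm, lintegral_const_mul _ (ham z)]
              refine add_le_add le_rfl ?_
              show a y z * ((u z)⁻¹ * (u z)⁻¹) * u z ≤ _
              calc a y z * ((u z)⁻¹ * (u z)⁻¹) * u z = a y z * (u z)⁻¹ * ((u z)⁻¹ * u z) := by ring
                _ ≤ a y z * (u z)⁻¹ * 1 := mul_le_mul' le_rfl (ENNReal.inv_mul_le_one _)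
                _ = _ := mul_one _
    _ ≤ _ := by
        rw [lintegral_add_right (μ := gam n) (g := fun z => a y z * (u z)⁻¹) _ ((haz y).mul hum.inv)]
        refine add_le_add ?_ le_rfl
        rw [lintegral_lintegral_swap]
        swap
        · exact (by simp only [ha, hf, wt]; fun_prop :
            Measurable (Function.uncurry fun z x => a y z * a x z * f x)).aemeasurable
        have e : ∀ x, ∫⁻ z, a y z * a x z * f x ∂(gam n)
            = ENNReal.ofReal (Real.exp (t * ⟪y, x⟫)) * f x := fun x => by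
          rw [lintegral_mul_const _ ((haz y).fun_mul (haz x))]
          congr 1
          have := lintegral_two ht y x 0
          simp only [Real.exp_zero, mul_one, add_zero] at this
          simp only [ha, ← ENNReal.ofReal_mul (wt_pos _ _ _).le]
          exact this
        simp only [e]
        rw [← lintegral_add_left ((by fun_prop : Measurable fun x : Euc n =>
          ENNReal.ofReal (Real.exp (2 * t * ⟪y, x⟫))))]
        refine lintegral_mono fun x => (two_mul_le _ _).trans (le_of_eq ?_)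
        simp only [hf]
        rw [← ENNReal.ofReal_mul (Real.exp_pos _).le, ← ENNReal.ofReal_mul (Real.exp_pos _).le,
          ← Real.exp_add, ← Real.exp_add]
        ring_nf

/-- Along paths ending in `S`, a short step backwards is seldom expensive. -/
lemma avg_move
    (hsub : ∀ θ : Euc n, ‖θ‖ = 1 → ∫⁻ x, ENNReal.ofReal (Real.exp (⟪x, θ⟫ ^ 2)) ∂μ ≤ 2)
    (ht : 0 ≤ t) (ht4 : t ≤ 1 / 4) {S : Set (Euc n)} (ε : ℝ) {R : ℝ}
    {ν : Measure (Euc n × Euc n)} {k : ℝ} (hk : 1 ≤ k)
    (hν : ν.map Prod.fst ≤ ENNReal.ofReal k • μ.restrict S) (hν1 : ν univ ≤ 1)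
    (hR : ∀ᵐ p ∂ν, ‖p.2‖ ≤ R) :
    ∫⁻ p, (∫⁻ g, wmass μ t S (g + Real.sqrt t • p.1 - (ε * Real.sqrt t) • p.2)
        * (wmass μ t S (g + Real.sqrt t • p.1))⁻¹ ∂(gam n)) ∂ν
      ≤ ENNReal.ofReal (7 * k * Real.exp (n * t ^ 2 + 4 * ε ^ 2 * t ^ 2 * R ^ 2)) := by
  set E := Real.exp (n * t ^ 2 + 4 * ε ^ 2 * t ^ 2 * R ^ 2) with hE
  set φ1 := fun y : Euc n => ∫⁻ x in S, ENNReal.ofReal (Real.exp (2 * t * ⟪y, x⟫)) ∂μ with hφ1
  set φ2 := fun v : Euc n => ∫⁻ x in S, ENNReal.ofReal (Real.exp (-(4 * ε * t * ⟪v, x⟫))) ∂μ with hφ2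
  set φ3 := fun y : Euc n => ∫⁻ z, ENNReal.ofReal (wt t z y) * (wmass μ t S z)⁻¹ ∂(gam n) with hφ3
  have m1 : Measurable φ1 := Measurable.lintegral_prod_right'
    (f := fun p : Euc n × Euc n => ENNReal.ofReal (Real.exp (2 * t * ⟪p.1, p.2⟫))) (by fun_prop)
  have m2 : Measurable φ2 := Measurable.lintegral_prod_right'
    (f := fun p : Euc n × Euc n => ENNReal.ofReal (Real.exp (-(4 * ε * t * ⟪p.1, p.2⟫)))) (by fun_prop)
  have mz : Measurable fun p : Euc n × Euc n =>
      ENNReal.ofReal (wt t p.2 p.1) * (wmass μ t S p.2)⁻¹ :=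
    ((measurable_wt t).comp measurable_swap).ennreal_ofReal.mul
      ((measurable_wmass t S).comp measurable_snd).inv
  have m3 : Measurable φ3 := Measurable.lintegral_prod_right' mz
  have hstep : ∫⁻ p, (∫⁻ g, wmass μ t S (g + Real.sqrt t • p.1 - (ε * Real.sqrt t) • p.2)
        * (wmass μ t S (g + Real.sqrt t • p.1))⁻¹ ∂(gam n)) ∂ν
      ≤ ∫⁻ p, (φ1 p.1 + φ2 p.2 + φ3 p.1) ∂ν :=
    lintegral_mono fun p => step_le (μ := μ) ht S ε p.1 p.2
  refine hstep.trans ?_
  have m12 : Measurable fun p : Euc n × Euc n => φ1 p.1 + φ2 p.2 :=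
    (m1.comp measurable_fst).fun_add (m2.comp measurable_snd)
  have m1' : Measurable fun p : Euc n × Euc n => φ1 p.1 := m1.comp measurable_fst
  rw [lintegral_add_left m12, lintegral_add_left m1']
  have marg : ∀ φ : Euc n → ℝ≥0∞, Measurable φ →
      ∫⁻ p, φ p.1 ∂ν ≤ ENNReal.ofReal k * ∫⁻ y in S, φ y ∂μ := fun φ hφ => by
    rw [← lintegral_map hφ measurable_fst]
    refine (lintegral_mono' hν le_rfl).trans (le_of_eq ?_)
    rw [lintegral_smul_measure, smul_eq_mul]
  have hsub1 : ∀ θ : Euc n, ‖θ‖ = 1 →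
      ∫⁻ x, ENNReal.ofReal (Real.exp (⟪x, θ⟫ ^ 2 / (1 : ℝ) ^ 2)) ∂μ ≤ 2 := by simpa using hsub
  have b1 : ∫⁻ p, φ1 p.1 ∂ν ≤ ENNReal.ofReal (4 * k * E) := by
    refine (marg _ m1).trans ?_
    have h := pair_exp (μ := μ) one_pos hsub1 (l := 2 * t) (by linarith) (by linarith)
    rw [show (4 : ℝ) * k * E = k * (4 * E) by ring, ENNReal.ofReal_mul (by linarith : (0 : ℝ) ≤ k)]
    refine mul_le_mul' le_rfl (le_trans ?_ (h.trans (ENNReal.ofReal_le_ofReal ?_)))
    · exact lintegral_mono' Measure.restrict_le_self fun y =>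
        lintegral_mono' Measure.restrict_le_self fun x => le_rfl
    · refine mul_le_mul_of_nonneg_left (Real.exp_le_exp.2 ?_) (by norm_num)
      have : 0 ≤ 4 * ε ^ 2 * t ^ 2 * R ^ 2 := by positivity
      linarith
  have b2 : ∫⁻ p, φ2 p.2 ∂ν ≤ ENNReal.ofReal (2 * E) := by
    calc ∫⁻ p, φ2 p.2 ∂ν ≤ ∫⁻ _p, ENNReal.ofReal (2 * E) ∂ν := by
          refine lintegral_mono_ae ?_
          filter_upwards [hR] with p hp
          have h := lap (μ := μ) one_pos hsub1 ((-(4 * ε * t)) • p.2)
          refine le_trans (lintegral_mono' Measure.restrict_le_self fun x => le_of_eq ?_) (h.trans ?_)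
          · rw [real_inner_smul_right, real_inner_comm x p.2, neg_mul]
          · rw [ENNReal.ofReal_mul (p := (2 : ℝ)) zero_le_two, ENNReal.ofReal_ofNat]
            refine mul_le_mul' le_rfl (ENNReal.ofReal_le_ofReal (Real.exp_le_exp.2 ?_))
            rw [norm_smul, mul_pow, Real.norm_eq_abs, sq_abs]
            have h1 : ‖p.2‖ ^ 2 ≤ R ^ 2 := pow_le_pow_left₀ (norm_nonneg _) hp 2
            have h2 : 0 ≤ (n : ℝ) * t ^ 2 := by positivity
            have h3 := mul_le_mul_of_nonneg_left h1 (by positivity : (0 : ℝ) ≤ 4 * ε ^ 2 * t ^ 2)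
            linarith
      _ ≤ _ := by
          rw [lintegral_const]
          exact mul_le_of_le_one_right zero_le hν1
  have b3 : ∫⁻ p, φ3 p.1 ∂ν ≤ ENNReal.ofReal k := by
    refine (marg _ m3).trans (mul_le_of_le_one_right zero_le ?_)
    simp only [hφ3]
    rw [lintegral_lintegral_swap mz.aemeasurable]
    calc ∫⁻ z, ∫⁻ y in S, ENNReal.ofReal (wt t z y) * (wmass μ t S z)⁻¹ ∂μ ∂(gam n)
        ≤ ∫⁻ _z, 1 ∂(gam n) := by
          refine lintegral_mono fun z => ?_
          have hm : Measurable fun y => ENNReal.ofReal (wt t z y) :=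
            ((measurable_wt t).comp measurable_prodMk_left).ennreal_ofReal
          rw [lintegral_mul_const _ hm]
          exact ENNReal.mul_inv_le_one _
      _ = 1 := by simp
  refine (add_le_add (add_le_add b1 b2) b3).trans ?_
  rw [← ENNReal.ofReal_add (by positivity) (by positivity),
    ← ENNReal.ofReal_add (by positivity) (by linarith)]
  refine ENNReal.ofReal_le_ofReal ?_
  have hE1 : 1 ≤ E := Real.one_le_exp (by positivity)
  nlinarith

end Vale.Agent.P245.Boot
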