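import Mathlib
import Vale.Agent.P245.Core
import Vale.Agent.P245.Boot.Shift
import Vale.Agent.P245.Boot.Couple

/-!
The bootstrap: if separated sets satisfy `r² ≤ M W(L)` with `W(L) = max (4 L) (n^(1/3) L^(2/3))`,
they satisfy it with `C √M`; hence with an absolute constant.
-/

open MeasureTheory Set
open scoped ENNReal RealInnerProductSpace NNReal

namespace Vale.Agent.P245.Boot

variable {n : ℕ}

/-- The profile. -/
noncomputable def Wp (n : ℕ) (L : ℝ) : ℝ := max (4 * L) ((n : ℝ) ^ ((1 : ℝ) / 3) * L ^ ((2 : ℝ) / 3))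

/-- Separated sets obey the profile with constant `M`. -/
def Sep (μ : Measure (Euc n)) (M : ℝ) : Prop :=
  ∀ A B : Set (Euc n), MeasurableSet A → MeasurableSet B → ∀ L : ℝ, 1 ≤ L →
    1 / 2 ≤ μ.real A → Real.exp (-L) ≤ μ.real B → ∀ r : ℝ, 0 ≤ r →
    (∀ x ∈ A, ∀ y ∈ B, r ≤ ‖x - y‖) → r ^ 2 ≤ M * Wp n L

lemma four_le_Wp {L : ℝ} (hL : 1 ≤ L) : 4 ≤ Wp n L := le_max_of_le_left (by linarith)

lemma Wp_mul_le {L c : ℝ} (hL : 1 ≤ L) (hc : 1 ≤ c) : Wp n (c * L) ≤ c * Wp n L := by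
  refine max_le ?_ ?_
  · calc 4 * (c * L) = c * (4 * L) := by ring
      _ ≤ _ := mul_le_mul_of_nonneg_left (le_max_left _ _) (by linarith)
  · rw [Real.mul_rpow (by linarith) (by linarith)]
    calc (n : ℝ) ^ ((1 : ℝ) / 3) * (c ^ ((2 : ℝ) / 3) * L ^ ((2 : ℝ) / 3))
        = c ^ ((2 : ℝ) / 3) * ((n : ℝ) ^ ((1 : ℝ) / 3) * L ^ ((2 : ℝ) / 3)) := by ring
      _ ≤ c ^ (1 : ℝ) * Wp n L := mul_le_mul
          (Real.rpow_le_rpow_of_exponent_le hc (by norm_num)) (le_max_right _ _) (by positivity)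
          (by positivity)
      _ = _ := by rw [Real.rpow_one]

lemma Wp_mono {L L' : ℝ} (hL : 0 ≤ L) (h : L ≤ L') : Wp n L ≤ Wp n L' := by
  unfold Wp
  gcongr

lemma cube_le {L : ℝ} (hL : 1 ≤ L) : (n : ℝ) * L ^ 2 ≤ Wp n L ^ 3 := by
  have h0 : 0 ≤ (n : ℝ) ^ ((1 : ℝ) / 3) * L ^ ((2 : ℝ) / 3) := by positivity
  refine le_trans (le_of_eq ?_) (pow_le_pow_left₀ h0 (le_max_right _ _) 3)
  rw [mul_pow, ← Real.rpow_natCast, ← Real.rpow_natCast _ 3, ← Real.rpow_natCast _ 3,
    ← Real.rpow_mul (Nat.cast_nonneg n), ← Real.rpow_mul (by linarith)]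
  norm_num

variable {μ : Measure (Euc n)} [IsProbabilityMeasure μ]

lemma wmass_univ_ne_zero (t : ℝ) (z : Euc n) : wmass μ t univ z ≠ 0 := by
  rw [wmass, Measure.restrict_univ, Ne, lintegral_eq_zero_iff
    (f := fun x => ENNReal.ofReal (wt t z x))
    ((measurable_wt t).comp measurable_prodMk_left).ennreal_ofReal]
  intro h
  have : μ {x | ENNReal.ofReal (wt t z x) ≠ 0} = 0 := ae_iff.1 h
  simp [wt_pos, (wt_pos t z _).ne', not_le] at this

/-- The two-set gain at a tilt. -/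
lemma tilt_gain {ρ : Euc n → ℝ} (hρm : Measurable ρ) (hρ0 : ∀ x, 0 ≤ ρ x)
    (hmid : ∀ x y, ρ x * ρ y ≤ ρ ((2 : ℝ)⁻¹ • (x + y)) ^ 2)
    (hμ : μ = volume.withDensity fun x => ENNReal.ofReal (ρ x)) {t : ℝ} (ht : 0 < t)
    {A B : Set (Euc n)} (hA : MeasurableSet A) (hB : MeasurableSet B) {r : ℝ} (hr : 0 ≤ r)
    (hsep : ∀ x ∈ A, ∀ y ∈ B, r ≤ ‖x - y‖) (z : Euc n) :
    wmass μ t A z * wmass μ t B z
      ≤ ENNReal.ofReal (Real.exp (-(t * r ^ 2 / 8))) * wmass μ t univ z ^ 2 := by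
  set ψ := fun x => ρ x * Real.exp (Real.sqrt t * ⟪z, x⟫ - t * ‖x‖ ^ 2 / 4) with hψ
  have hψm : Measurable ψ := hρm.mul (by fun_prop)
  have key := two_set (τ := t / 2) (by positivity) hψm
    (fun x => mul_nonneg (hρ0 x) (Real.exp_pos _).le) (K := t * r ^ 2 / 8) hA hB
    (fun x hx y hy => by
      have hp := parallelogram_law_with_norm ℝ x y
      have hm : ‖(2 : ℝ)⁻¹ • (x + y)‖ ^ 2 = ‖x + y‖ ^ 2 / 4 := by
        rw [norm_smul, mul_pow]; norm_num; ring
      have hr2 : r ^ 2 ≤ ‖x - y‖ ^ 2 := pow_le_pow_left₀ hr (hsep x hx y hy) 2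
      have hi : ⟪z, (2 : ℝ)⁻¹ • (x + y)⟫ = (⟪z, x⟫ + ⟪z, y⟫) / 2 := by
        rw [real_inner_smul_right, inner_add_right]; ring
      simp only [hψ]
      rw [mul_mul_mul_comm, mul_pow, ← Real.exp_add, mul_left_comm, ← Real.exp_nat_mul,
        ← Real.exp_add]
      refine mul_le_mul (hmid x y) (Real.exp_le_exp.2 ?_) (Real.exp_pos _).le (sq_nonneg _)
      rw [hm, hi]
      push_cast
      nlinarith [mul_le_mul_of_nonneg_left hr2 ht.le])
  have hconv : ∀ S : Set (Euc n), MeasurableSet S → wmass μ t S z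
      = ∫⁻ x in S, ENNReal.ofReal (ψ x * Real.exp (-(t / 2 * ‖x‖ ^ 2) / 2)) := by
    intro S hS
    rw [wmass, hμ, setLIntegral_withDensity_eq_setLIntegral_mul _ hρm.ennreal_ofReal
      (by unfold wt; fun_prop) hS]
    refine lintegral_congr fun x => ?_
    simp only [Pi.mul_apply]
    rw [← ENNReal.ofReal_mul (hρ0 x), hψ, mul_assoc, ← Real.exp_add, wt]
    ring_nf
  rwa [← hconv A hA, ← hconv B hB, ← setLIntegral_univ, ← hconv univ MeasurableSet.univ] at key

/-- Enlarging a set of mass `1/6`: separated sets with one of mass at least `1/6`. -/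
lemma sep_sixth {M : ℝ} (hM : 1 ≤ M) (hS : Sep μ M) {A B : Set (Euc n)} (hA : MeasurableSet A)
    (hB : MeasurableSet B) {L : ℝ} (hL : 1 ≤ L) (hpA : 1 / 6 ≤ μ.real A)
    (hpB : Real.exp (-(4 * L)) ≤ μ.real B) {R : ℝ} (hR : 0 ≤ R)
    (hsep : ∀ x ∈ A, ∀ y ∈ B, R ≤ ‖x - y‖) : R ^ 2 ≤ 64 * M * Wp n L := by
  set ρ := Real.sqrt (M * Wp n L) * 2 with hρ
  have hW := four_le_Wp (n := n) hL
  have hMW : 4 ≤ M * Wp n L :=
    hW.trans (le_mul_of_one_le_left (by linarith) hM)
  have hρ0 : 0 < ρ := by positivity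
  have hρ2 : ρ ^ 2 = 4 * (M * Wp n L) := by
    rw [hρ, mul_pow, Real.sq_sqrt (by linarith)]; ring
  rcases le_or_gt R ρ with hRρ | hRρ
  · have := pow_le_pow_left₀ hR hRρ 2
    linarith
  set E := Metric.thickening ρ A with hE
  have hEm : MeasurableSet E := Metric.isOpen_thickening.measurableSet
  have hE2 : 1 / 2 ≤ μ.real E := by
    by_contra hlt
    push Not at hlt
    have hc : 1 / 2 ≤ μ.real Eᶜ := by rw [probReal_compl_eq_one_sub hEm]; linarith
    have he : Real.exp (-2) ≤ μ.real A := by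
      refine le_trans ?_ hpA
      rw [Real.exp_neg, show (1 : ℝ) / 6 = 6⁻¹ by norm_num]
      refine inv_anti₀ (by norm_num) ?_
      have h27 : (2.7 : ℝ) ≤ Real.exp 1 := by linarith [Real.exp_one_gt_d9]
      calc (6 : ℝ) ≤ 2.7 ^ 2 := by norm_num
        _ ≤ Real.exp 1 ^ 2 := pow_le_pow_left₀ (by norm_num) h27 2
        _ = _ := by rw [← Real.exp_nat_mul]; norm_num
    have h := hS Eᶜ A hEm.compl hA 2 (by norm_num) hc he ρ hρ0.le (fun x hx y hy => by
      by_contra hlt'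
      exact hx (Metric.mem_thickening_iff.2 ⟨y, hy, by rw [dist_eq_norm]; exact not_le.1 hlt'⟩))
    have h2 : Wp n 2 ≤ 2 * Wp n L :=
      (Wp_mono (n := n) (by norm_num) (by linarith : (2 : ℝ) ≤ 2 * L)).trans
        (Wp_mul_le hL one_le_two)
    rw [hρ2] at h
    have := mul_le_mul_of_nonneg_left h2 (by linarith : 0 ≤ M)
    linarith
  have h := hS E B hEm hB (4 * L) (by linarith) hE2 hpB (R - ρ) (by linarith) (fun x hx y hy => by
    obtain ⟨a, ha, hxa⟩ := Metric.mem_thickening_iff.1 hx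
    rw [dist_eq_norm, norm_sub_rev] at hxa
    have := hsep a ha y hy
    have := norm_sub_le_norm_sub_add_norm_sub a x y
    linarith)
  have h2 := mul_le_mul_of_nonneg_left (Wp_mul_le (n := n) hL (by norm_num : (1 : ℝ) ≤ 4))
    (by linarith : 0 ≤ M)
  have h3 : R ^ 2 ≤ 2 * (R - ρ) ^ 2 + 2 * ρ ^ 2 := by nlinarith [sq_nonneg (R - 2 * ρ)]
  linarith

/-- One step of the bootstrap. -/
theorem sep_step {ρ : Euc n → ℝ} (hρm : Measurable ρ) (hρ0 : ∀ x, 0 ≤ ρ x)
    (hmid : ∀ x y, ρ x * ρ y ≤ ρ ((2 : ℝ)⁻¹ • (x + y)) ^ 2)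
    (hμ : μ = volume.withDensity fun x => ENNReal.ofReal (ρ x))
    (hsub : ∀ θ : Euc n, ‖θ‖ = 1 → ∫⁻ x, ENNReal.ofReal (Real.exp (⟪x, θ⟫ ^ 2)) ∂μ ≤ 2)
    {M : ℝ} (hM : 1 ≤ M) (hS : Sep μ M) : Sep μ (100000 * Real.sqrt M) := by
  intro A B hA hB L hL hpA hpB r hr hsep
  set W := Wp n L with hW
  have hW4 : 4 ≤ W := four_le_Wp hL
  have hW4L : 4 * L ≤ W := le_max_left _ _
  set t := L / W with ht
  have ht0 : 0 < t := by positivity
  have ht4 : t ≤ 1 / 4 := by rw [ht, div_le_iff₀ (by linarith)]; linarith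
  have hnt : (n : ℝ) * t ^ 2 ≤ W := by
    rw [ht, div_pow, mul_div_assoc', div_le_iff₀ (by positivity)]
    calc (n : ℝ) * L ^ 2 ≤ W ^ 3 := cube_le hL
      _ = W * W ^ 2 := by ring
  -- truncation
  set η := Real.exp (-(2 * L)) with hη
  have hη0 : 0 < η := Real.exp_pos _
  have h27 : (2.7 : ℝ) ≤ Real.exp 1 := by linarith [Real.exp_one_gt_d9]
  have hη8 : η ≤ 1 / 6 := by
    refine (Real.exp_le_exp.2 (show -(2 * L) ≤ -2 by linarith)).trans ?_
    rw [Real.exp_neg, show (1 : ℝ) / 6 = 6⁻¹ by norm_num]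
    refine inv_anti₀ (by norm_num) ?_
    calc (6 : ℝ) ≤ 2.7 ^ 2 := by norm_num
      _ ≤ Real.exp 1 ^ 2 := pow_le_pow_left₀ (by norm_num) h27 2
      _ = _ := by rw [← Real.exp_nat_mul]; norm_num
  have hU : (⋃ k : ℕ, Metric.closedBall (0 : Euc n) k) = Set.univ :=
    Set.eq_univ_of_forall fun x => by
      obtain ⟨k, hk⟩ := exists_nat_ge ‖x‖
      exact Set.mem_iUnion.2 ⟨k, mem_closedBall_zero_iff.2 hk⟩
  have hlim := tendsto_measure_iUnion_atTop (μ := μ) (s := fun k : ℕ => Metric.closedBall (0 : Euc n) k)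
    fun i j hij => Metric.closedBall_subset_closedBall (Nat.cast_le.2 hij)
  rw [hU, measure_univ] at hlim
  obtain ⟨k, hk⟩ := (hlim.eventually (lt_mem_nhds (show ENNReal.ofReal (1 - η) < 1 by
    rw [ENNReal.ofReal_lt_one]; linarith))).exists
  set K := Metric.closedBall (0 : Euc n) (k : ℝ) with hK
  have hKm : MeasurableSet K := measurableSet_closedBall
  have hKc : μ.real Kᶜ ≤ η := by
    rw [probReal_compl_eq_one_sub hKm, Measure.real]
    have h1 : 1 - η ≤ (μ K).toReal := by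
      rw [← ENNReal.toReal_ofReal (show 0 ≤ 1 - η by linarith)]
      exact (ENNReal.toReal_le_toReal ENNReal.ofReal_ne_top (measure_ne_top _ _)).2 hk.le
    linarith
  have hcut : ∀ S : Set (Euc n), μ.real S - η ≤ μ.real (S ∩ K) := fun S => by
    have : μ.real S ≤ μ.real (S ∩ K) + μ.real Kᶜ := by
      refine (measureReal_mono fun x hx => ?_).trans (measureReal_union_le _ _)
      by_cases hxK : x ∈ K
      · exact Or.inl ⟨hx, hxK⟩
      · exact Or.inr hxK
    linarith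
  set A₁ := A ∩ K with hA1
  set B₁ := B ∩ K with hB1
  have hA1m : MeasurableSet A₁ := hA.inter hKm
  have hB1m : MeasurableSet B₁ := hB.inter hKm
  have hpA1 : 1 / 3 ≤ μ.real A₁ := by linarith [hcut A]
  have hpB1 : η ≤ μ.real B₁ := by
    refine le_trans ?_ (hcut B)
    have : 2 * η ≤ Real.exp (-L) := by
      rw [hη, show -(2 * L) = -L + -L by ring, Real.exp_add, ← mul_assoc]
      refine mul_le_of_le_one_left (Real.exp_pos _).le ?_
      have h1 : Real.exp (-L) ≤ Real.exp (-1) := Real.exp_le_exp.2 (by linarith)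
      have h2 : Real.exp (-1) ≤ 1 / 2 := by
        rw [Real.exp_neg, show (1 : ℝ) / 2 = 2⁻¹ by norm_num]
        exact inv_anti₀ (by norm_num) (by linarith)
      linarith
    linarith
  -- the coupling
  set R := 9 * Real.sqrt (M * W) with hR
  have hMW : 4 ≤ M * W := hW4.trans (le_mul_of_one_le_left (by linarith) hM)
  have hR0 : 0 ≤ R := by positivity
  obtain ⟨κ, hκ1, hκh, hκA, hκB, hκd⟩ := exists_coupling hA1m hB1m (k := (k : ℝ))
    inter_subset_right inter_subset_right (by linarith) (by linarith) (R := R) (by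
      intro A' B' hA' hB' _ _ hmA hmB
      by_contra hcon
      push Not at hcon
      have h1 : Real.exp (-(4 * L)) ≤ μ.real B' := by
        refine le_trans ?_ hmB
        refine le_trans ?_ (div_le_div_of_nonneg_right hpB1 (by norm_num))
        rw [hη, le_div_iff₀ two_pos, show -(4 * L) = -(2 * L) + -(2 * L) by ring, Real.exp_add,
          mul_assoc]
        refine mul_le_of_le_one_right (Real.exp_pos _).le ?_
        linarith [hη8]
      have h2 := sep_sixth hM hS hA' hB' hL (by linarith) h1 hR0 hcon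
      rw [hR, mul_pow, Real.sq_sqrt (by linarith)] at h2
      linarith)
  -- the good events
  set ε := (t * Real.sqrt M)⁻¹ with hε
  have hsM : 1 ≤ Real.sqrt M := Real.one_le_sqrt.2 hM
  have hε0 : 0 < ε := by positivity
  set Q := 2 * L + 6 + n * t ^ 2 + 4 * ε ^ 2 * t ^ 2 * (R + 2) ^ 2 with hQ
  set c : ℝ≥0∞ := ENNReal.ofReal (η / 16) with hc
  set eQ : ℝ≥0∞ := ENNReal.ofReal (Real.exp (-Q)) with heQ
  set UA := wmass μ t A₁
  set UB := wmass μ t B₁
  set Z := wmass μ t univ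
  set za := fun q : (Euc n × Euc n) × Euc n => q.2 + Real.sqrt t • q.1.1 with hza
  set zb := fun q : (Euc n × Euc n) × Euc n => q.2 + Real.sqrt t • q.1.2 with hzb
  set T1 := {z | UA z < c * Z z}.indicator (fun _ => (1 : ℝ≥0∞)) with hT1
  set T2 := {z | UB z < c * Z z}.indicator (fun _ => (1 : ℝ≥0∞)) with hT2
  have mza : Measurable za := by simp only [hza]; fun_prop
  have mzb : Measurable zb := by simp only [hzb]; fun_prop
  have mUA : Measurable UA := measurable_wmass t A₁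
  have mUB : Measurable UB := measurable_wmass t B₁
  have mZ : Measurable Z := measurable_wmass t univ
  set G1 := fun q : (Euc n × Euc n) × Euc n => T1 (za q) with hG1
  set G2 := fun q : (Euc n × Euc n) × Euc n => T2 (zb q) with hG2
  set G3 := fun q : (Euc n × Euc n) × Euc n =>
    eQ * (UA (za q - (ε * Real.sqrt t) • (q.1.2 - q.1.1)) * (UA (za q))⁻¹) with hG3
  set G4 := fun q : (Euc n × Euc n) × Euc n =>
    eQ * (Z (zb q - (ε * Real.sqrt t) • (q.1.1 - q.1.2)) * (Z (zb q))⁻¹) with hG4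
  have mG1 : Measurable G1 :=
    (measurable_const.indicator (measurableSet_lt mUA (mZ.const_mul c))).comp mza
  have mG2 : Measurable G2 :=
    (measurable_const.indicator (measurableSet_lt mUB (mZ.const_mul c))).comp mzb
  have mG3 : Measurable G3 :=
    ((mUA.comp (mza.sub (by fun_prop))).mul (mUA.comp mza).inv).const_mul _
  have mG4 : Measurable G4 :=
    ((mZ.comp (mzb.sub (by fun_prop))).mul (mZ.comp mzb).inv).const_mul _
  have hkA : ENNReal.ofReal (μ.real A₁)⁻¹ ≤ 3 := by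
    rw [← ENNReal.ofReal_ofNat 3]
    refine ENNReal.ofReal_le_ofReal ?_
    rw [inv_le_comm₀ (by linarith) (by norm_num)]
    linarith
  have hkB : (μ.real B₁)⁻¹ ≤ η⁻¹ := inv_anti₀ hη0 hpB1
  have b1 : ∫⁻ p, ∫⁻ g, G1 (p, g) ∂(gam n) ∂κ ≤ ENNReal.ofReal (3 / 16) := by
    have h := avg_small (μ := μ) (S := A₁) ht0.le hκA c
    have hm : Measurable fun y => ∫⁻ g, T1 (g + Real.sqrt t • y) ∂(gam n) :=
      Measurable.lintegral_prod_right' (f := fun p : Euc n × Euc n => T1 (p.2 + Real.sqrt t • p.1))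
        ((measurable_const.indicator (measurableSet_lt mUA (mZ.const_mul c))).comp (by fun_prop))
    rw [lintegral_map hm measurable_fst] at h
    refine h.trans ((mul_le_mul' hkA le_rfl).trans ?_)
    rw [hc, ← ENNReal.ofReal_ofNat 3, ← ENNReal.ofReal_mul (by norm_num)]
    refine ENNReal.ofReal_le_ofReal ?_
    linarith
  have b2 : ∫⁻ p, ∫⁻ g, G2 (p, g) ∂(gam n) ∂κ ≤ ENNReal.ofReal (1 / 16) := by
    have h := avg_small (μ := μ) (S := B₁) ht0.le hκB c
    have hm : Measurable fun y => ∫⁻ g, T2 (g + Real.sqrt t • y) ∂(gam n) :=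
      Measurable.lintegral_prod_right' (f := fun p : Euc n × Euc n => T2 (p.2 + Real.sqrt t • p.1))
        ((measurable_const.indicator (measurableSet_lt mUB (mZ.const_mul c))).comp (by fun_prop))
    rw [lintegral_map hm measurable_snd] at h
    refine h.trans ?_
    rw [hc, ← ENNReal.ofReal_mul (inv_nonneg.2 measureReal_nonneg)]
    refine ENNReal.ofReal_le_ofReal ?_
    calc (μ.real B₁)⁻¹ * (η / 16) ≤ η⁻¹ * (η / 16) := mul_le_mul_of_nonneg_right hkB (by positivity)
      _ = _ := by field_simp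
  set F := fun (S : Set (Euc n)) (p : Euc n × Euc n) =>
    ∫⁻ g, wmass μ t S (g + Real.sqrt t • p.1 - (ε * Real.sqrt t) • p.2)
      * (wmass μ t S (g + Real.sqrt t • p.1))⁻¹ ∂(gam n) with hF
  have mF : ∀ S : Set (Euc n), Measurable (F S) := fun S =>
    Measurable.lintegral_prod_right'
      (f := fun q : (Euc n × Euc n) × Euc n =>
        wmass μ t S (q.2 + Real.sqrt t • q.1.1 - (ε * Real.sqrt t) • q.1.2)
          * (wmass μ t S (q.2 + Real.sqrt t • q.1.1))⁻¹)
      (((measurable_wmass t S).comp (by fun_prop)).mul ((measurable_wmass t S).comp (by fun_prop)).inv)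
  have he2L : 1 ≤ Real.exp (2 * L) := Real.one_le_exp (by linarith)
  have hQb : ∀ k : ℝ, k ≤ 3 * Real.exp (2 * L) →
      Real.exp (-Q) * (7 * k * Real.exp (n * t ^ 2 + 4 * ε ^ 2 * t ^ 2 * (R + 2) ^ 2)) ≤ 1 / 16 := by
    intro k hk3
    calc Real.exp (-Q) * (7 * k * Real.exp (n * t ^ 2 + 4 * ε ^ 2 * t ^ 2 * (R + 2) ^ 2))
        ≤ Real.exp (-Q) * (7 * (3 * Real.exp (2 * L))
          * Real.exp (n * t ^ 2 + 4 * ε ^ 2 * t ^ 2 * (R + 2) ^ 2)) := by
          gcongr
      _ = 21 * Real.exp (-Q + (2 * L) + (n * t ^ 2 + 4 * ε ^ 2 * t ^ 2 * (R + 2) ^ 2)) := by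
          simp only [Real.exp_add]; ring
      _ = 21 * Real.exp (-6) := by rw [hQ]; ring_nf
      _ ≤ _ := by
          have h2 : (336 : ℝ) ≤ Real.exp 6 := by
            calc (336 : ℝ) ≤ 2.7 ^ 6 := by norm_num
              _ ≤ Real.exp 1 ^ 6 := pow_le_pow_left₀ (by norm_num) h27 6
              _ = _ := by rw [← Real.exp_nat_mul]; norm_num
          rw [Real.exp_neg, ← div_eq_mul_inv, div_le_iff₀ (Real.exp_pos 6)]
          linarith
  have b3 : ∫⁻ p, ∫⁻ g, G3 (p, g) ∂(gam n) ∂κ ≤ ENNReal.ofReal (1 / 16) := by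
    set φ := fun p : Euc n × Euc n => (p.1, p.2 - p.1) with hφ
    have hφm : Measurable φ := measurable_fst.prodMk (measurable_snd.sub measurable_fst)
    have hmap : (κ.map φ).map Prod.fst
        ≤ ENNReal.ofReal (max (μ.real A₁)⁻¹ 1) • μ.restrict A₁ := by
      rw [Measure.map_map measurable_fst hφm, show Prod.fst ∘ φ = Prod.fst from rfl]
      refine hκA.trans (Measure.le_iff.2 fun S _ => ?_)
      rw [Measure.smul_apply, Measure.smul_apply, smul_eq_mul, smul_eq_mul]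
      exact mul_le_mul' (ENNReal.ofReal_le_ofReal (le_max_left _ _)) le_rfl
    have h := avg_move (ν := κ.map φ) hsub ht0.le ht4 ε (R := R + 2) (le_max_right _ _) hmap
      (by rw [Measure.map_apply hφm MeasurableSet.univ, preimage_univ]; exact hκ1)
      ((ae_map_iff hφm.aemeasurable (measurableSet_le (by fun_prop) measurable_const)).2 hκd)
    rw [show (fun p => ∫⁻ g, wmass μ t A₁ (g + Real.sqrt t • p.1 - (ε * Real.sqrt t) • p.2)
      * (wmass μ t A₁ (g + Real.sqrt t • p.1))⁻¹ ∂(gam n)) = F A₁ from rfl,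
      lintegral_map (mF A₁) hφm] at h
    simp only [hG3]
    simp only [lintegral_const_mul' _ _ (show eQ ≠ ⊤ from ENNReal.ofReal_ne_top)]
    refine (mul_le_mul' le_rfl h).trans ?_
    rw [heQ, ← ENNReal.ofReal_mul (Real.exp_pos _).le]
    refine ENNReal.ofReal_le_ofReal (hQb _ (max_le ?_ (by linarith)))
    rw [inv_le_comm₀ (by linarith) (by positivity)]
    refine le_trans ?_ hpA1
    rw [inv_le_comm₀ (by positivity) (by norm_num)]
    linarith
  have b4 : ∫⁻ p, ∫⁻ g, G4 (p, g) ∂(gam n) ∂κ ≤ ENNReal.ofReal (1 / 16) := by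
    set φ := fun p : Euc n × Euc n => (p.2, p.1 - p.2) with hφ
    have hφm : Measurable φ := measurable_snd.prodMk (measurable_fst.sub measurable_snd)
    have hmap : (κ.map φ).map Prod.fst ≤ ENNReal.ofReal (η⁻¹) • μ.restrict univ := by
      rw [Measure.map_map measurable_fst hφm, show Prod.fst ∘ φ = Prod.snd from rfl,
        Measure.restrict_univ]
      refine hκB.trans (Measure.le_iff.2 fun S _ => ?_)
      rw [Measure.smul_apply, Measure.smul_apply, smul_eq_mul, smul_eq_mul]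
      exact mul_le_mul' (ENNReal.ofReal_le_ofReal hkB) (Measure.restrict_le_self S)
    have h := avg_move (ν := κ.map φ) hsub ht0.le ht4 ε (R := R + 2)
      ((one_le_inv₀ hη0).2 (by linarith)) hmap
      (by rw [Measure.map_apply hφm MeasurableSet.univ, preimage_univ]; exact hκ1)
      ((ae_map_iff hφm.aemeasurable (measurableSet_le (by fun_prop) measurable_const)).2
        (hκd.mono fun p hp => by rw [norm_sub_rev]; exact hp))
    rw [show (fun p => ∫⁻ g, wmass μ t univ (g + Real.sqrt t • p.1 - (ε * Real.sqrt t) • p.2)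
      * (wmass μ t univ (g + Real.sqrt t • p.1))⁻¹ ∂(gam n)) = F univ from rfl,
      lintegral_map (mF univ) hφm] at h
    simp only [hG4]
    simp only [lintegral_const_mul' _ _ (show eQ ≠ ⊤ from ENNReal.ofReal_ne_top)]
    refine (mul_le_mul' le_rfl h).trans ?_
    rw [heQ, ← ENNReal.ofReal_mul (Real.exp_pos _).le]
    refine ENNReal.ofReal_le_ofReal (hQb _ ?_)
    rw [hη, Real.exp_neg, inv_inv]
    linarith
  obtain ⟨p, g, hpg⟩ : ∃ p g, G1 (p, g) + G2 (p, g) + G3 (p, g) + G4 (p, g) < 1 := by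
    by_contra hcon
    push Not at hcon
    have h1 : κ univ ≤ ∫⁻ p, ∫⁻ g, (G1 (p, g) + G2 (p, g) + G3 (p, g) + G4 (p, g)) ∂(gam n) ∂κ := by
      refine le_trans (le_of_eq ?_) (lintegral_mono fun p => lintegral_mono fun g => hcon p g)
      simp
    have s1 := fun p : Euc n × Euc n => mG1.comp (measurable_prodMk_left (x := p))
    have s2 := fun p : Euc n × Euc n => mG2.comp (measurable_prodMk_left (x := p))
    have s3 := fun p : Euc n × Euc n => mG3.comp (measurable_prodMk_left (x := p))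
    have e : ∀ p, ∫⁻ g, (G1 (p, g) + G2 (p, g) + G3 (p, g) + G4 (p, g)) ∂(gam n)
        = (∫⁻ g, G1 (p, g) ∂(gam n)) + (∫⁻ g, G2 (p, g) ∂(gam n))
          + (∫⁻ g, G3 (p, g) ∂(gam n)) + ∫⁻ g, G4 (p, g) ∂(gam n) := fun p => by
      have w2 : Measurable fun g => G1 (p, g) + G2 (p, g) := (s1 p).fun_add (s2 p)
      have w3 : Measurable fun g => G1 (p, g) + G2 (p, g) + G3 (p, g) := w2.fun_add (s3 p)
      have w1 : Measurable fun g => G1 (p, g) := s1 p
      rw [lintegral_add_left w3, lintegral_add_left w2, lintegral_add_left w1]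
    simp only [e] at h1
    have i1 : Measurable fun p => ∫⁻ g, G1 (p, g) ∂(gam n) := mG1.lintegral_prod_right'
    have i2 : Measurable fun p => (∫⁻ g, G1 (p, g) ∂(gam n)) + ∫⁻ g, G2 (p, g) ∂(gam n) :=
      i1.fun_add mG2.lintegral_prod_right'
    have i3 : Measurable fun p => (∫⁻ g, G1 (p, g) ∂(gam n)) + (∫⁻ g, G2 (p, g) ∂(gam n))
        + ∫⁻ g, G3 (p, g) ∂(gam n) := i2.fun_add mG3.lintegral_prod_right'
    rw [lintegral_add_left i3, lintegral_add_left i2, lintegral_add_left i1] at h1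
    have h2 := (hκh.trans h1).trans (add_le_add (add_le_add (add_le_add b1 b2) b3) b4)
    rw [← ENNReal.ofReal_add (by norm_num) (by norm_num),
      ← ENNReal.ofReal_add (by norm_num) (by norm_num),
      ← ENNReal.ofReal_add (by norm_num) (by norm_num),
      show (1 / 2 : ℝ≥0∞) = ENNReal.ofReal (1 / 2) by
        rw [ENNReal.ofReal_div_of_pos two_pos, ENNReal.ofReal_one, ENNReal.ofReal_ofNat],
      ENNReal.ofReal_le_ofReal_iff (by norm_num)] at h2
    norm_num at h2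
  set z := za (p, g) with hz
  set z' := zb (p, g) with hz'
  have g1 : c * Z z ≤ UA z := by
    by_contra hlt
    have : G1 (p, g) = 1 := by
      simp only [hG1, hT1]
      exact indicator_of_mem (show za (p, g) ∈ {z | UA z < c * Z z} from not_le.1 hlt) _
    exact absurd hpg (not_lt.2 (le_trans this.ge (le_self_add.trans (le_self_add.trans le_self_add))))
  have g2 : c * Z z' ≤ UB z' := by
    by_contra hlt
    have : G2 (p, g) = 1 := by
      simp only [hG2, hT2]
      exact indicator_of_mem (show zb (p, g) ∈ {z | UB z < c * Z z} from not_le.1 hlt) _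
    exact absurd hpg (not_lt.2 (le_trans this.ge (le_add_self.trans (le_self_add.trans le_self_add))))
  have hc0 : c ≠ 0 := by rw [hc, ne_eq, ENNReal.ofReal_eq_zero, not_le]; positivity
  have hUA0 : UA z ≠ 0 := fun h => by
    rw [h, nonpos_iff_eq_zero, mul_eq_zero] at g1
    exact g1.elim hc0 (wmass_univ_ne_zero t z)
  have hclear : ∀ G U : ℝ≥0∞, U ≠ 0 → U ≠ ⊤ → eQ * (G * U⁻¹) ≤ 1 →
      G ≤ ENNReal.ofReal (Real.exp Q) * U := fun G U hU0 hUt h => by
    have h2 : eQ * ENNReal.ofReal (Real.exp Q) = 1 := by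
      rw [heQ, ← ENNReal.ofReal_mul (Real.exp_pos _).le, ← Real.exp_add]; simp
    calc G = ENNReal.ofReal (Real.exp Q) * U * (eQ * (G * U⁻¹)) := by
          rw [show ENNReal.ofReal (Real.exp Q) * U * (eQ * (G * U⁻¹))
            = eQ * ENNReal.ofReal (Real.exp Q) * (U * U⁻¹) * G by ring, h2,
            ENNReal.mul_inv_cancel hU0 hUt]
          simp
      _ ≤ ENNReal.ofReal (Real.exp Q) * U * 1 := mul_le_mul' le_rfl h
      _ = _ := mul_one _
  have g3 : G3 (p, g) ≤ 1 := le_trans (le_add_self.trans le_self_add) hpg.le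
  have g4 : G4 (p, g) ≤ 1 := le_trans le_add_self hpg.le
  simp only [hG3] at g3
  simp only [hG4] at g4
  have eA : z + Real.sqrt t • (p.2 - p.1) = z' := by
    simp only [hz, hz', hza, hzb]; module
  have eB : z' + Real.sqrt t • (p.1 - p.2) = z := by
    simp only [hz, hz', hza, hzb]; module
  have m3 := move ht0.le hε0 A₁ z (p.2 - p.1)
    (hclear _ _ hUA0 (wmass_ne_top ht0.le _ _) g3)
  have m4 := move ht0.le hε0 univ z' (p.1 - p.2)
    (hclear _ _ (wmass_univ_ne_zero t z') (wmass_ne_top ht0.le _ _) g4)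
  rw [eA] at m3
  rw [eB] at m4
  set E := ENNReal.ofReal (Real.exp (-(Q / ε))) with hE
  have hlow : E * E * (c * c) * Z z' ^ 2 ≤ UA z' * UB z' := by
    calc E * E * (c * c) * Z z' ^ 2 = (E * (c * (E * Z z'))) * (c * Z z') := by ring
      _ ≤ (E * (c * Z z)) * (c * Z z') := by gcongr
      _ ≤ (E * UA z) * UB z' := by gcongr
      _ ≤ _ := mul_le_mul' m3 le_rfl
  have hup := tilt_gain hρm hρ0 hmid hμ ht0 hA1m hB1m hr
    (fun x hx y hy => hsep x hx.1 y hy.1) z'
  have h5 := hlow.trans hup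
  have hZ2 : Z z' ^ 2 ≠ 0 := pow_ne_zero 2 (wmass_univ_ne_zero t z')
  rw [ENNReal.mul_le_mul_iff_left hZ2 (ENNReal.pow_ne_top (wmass_ne_top ht0.le _ _)), hE, hc,
    ← ENNReal.ofReal_mul (Real.exp_pos _).le, ← ENNReal.ofReal_mul (by positivity),
    ← ENNReal.ofReal_mul (by positivity), ENNReal.ofReal_le_ofReal_iff (Real.exp_pos _).le] at h5
  have h6 : Real.exp (-(2 * (Q / ε) + 2 * (2 * L + 3))) ≤ Real.exp (-(t * r ^ 2 / 8)) := by
    refine le_trans ?_ h5
    have h16 : Real.exp (-(2 * L + 3)) ≤ η / 16 := by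
      rw [hη, neg_add, Real.exp_add, div_eq_mul_inv]
      refine mul_le_mul_of_nonneg_left ?_ (Real.exp_pos _).le
      rw [Real.exp_neg]
      refine inv_anti₀ (by norm_num) ?_
      calc (16 : ℝ) ≤ 2.7 ^ 3 := by norm_num
        _ ≤ Real.exp 1 ^ 3 := pow_le_pow_left₀ (by norm_num) h27 3
        _ = _ := by rw [← Real.exp_nat_mul]; norm_num
    calc Real.exp (-(2 * (Q / ε) + 2 * (2 * L + 3)))
        = Real.exp (-(Q / ε)) * Real.exp (-(Q / ε))
          * (Real.exp (-(2 * L + 3)) * Real.exp (-(2 * L + 3))) := by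
          simp only [← Real.exp_add]; ring_nf
      _ ≤ _ := by gcongr
  rw [Real.exp_le_exp] at h6
  -- the constant
  have hWt : L = t * W := by rw [ht]; field_simp
  have hQε : Q / ε = (2 * L + 6 + n * t ^ 2) * (t * Real.sqrt M)
      + 4 * t * (R + 2) ^ 2 / Real.sqrt M := by
    rw [hQ, hε]; field_simp
  have hR2 : (R + 2) ^ 2 ≤ 200 * (M * W) := by
    have h1 : R + 2 ≤ 10 * Real.sqrt (M * W) := by
      have : 2 ≤ Real.sqrt (M * W) := Real.le_sqrt_of_sq_le (by linarith)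
      rw [hR]; linarith
    have := pow_le_pow_left₀ (by linarith) h1 2
    rw [mul_pow, Real.sq_sqrt (by linarith)] at this
    linarith
  have k1 : (2 * L + 6 + n * t ^ 2) * (t * Real.sqrt M) ≤ 3 * L * Real.sqrt M := by
    have ha : 2 * L + 6 + n * t ^ 2 ≤ 3 * W := by linarith
    calc (2 * L + 6 + n * t ^ 2) * (t * Real.sqrt M) ≤ 3 * W * (t * Real.sqrt M) :=
          mul_le_mul_of_nonneg_right ha (by positivity)
      _ = _ := by rw [hWt]; ring
  have k2 : 4 * t * (R + 2) ^ 2 / Real.sqrt M ≤ 800 * L * Real.sqrt M := by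
    rw [div_le_iff₀ (by linarith), mul_assoc (800 * L), Real.mul_self_sqrt (by linarith), hWt]
    have := mul_le_mul_of_nonneg_left hR2 (by positivity : (0 : ℝ) ≤ 4 * t)
    linarith
  have k3 : 2 * L + 3 ≤ 5 * L * Real.sqrt M := by
    have := mul_le_mul_of_nonneg_left hsM (by linarith : (0 : ℝ) ≤ 5 * L)
    linarith
  have h7 : t * r ^ 2 ≤ t * (100000 * Real.sqrt M * W) := by
    calc t * r ^ 2 ≤ 8 * (2 * (Q / ε) + 2 * (2 * L + 3)) := by linarith
      _ ≤ 100000 * Real.sqrt M * L := by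
          rw [hQε]
          have : 0 ≤ L * Real.sqrt M := by positivity
          linarith
      _ = _ := by rw [hWt]; ring
  exact le_of_mul_le_mul_left h7 ht0

/-- The fixed point of the bootstrap. -/
theorem sep_bound : ∃ C : ℝ, 1 ≤ C ∧ ∀ {n : ℕ} {ρ : Euc n → ℝ}, Measurable ρ → (∀ x, 0 ≤ ρ x) →
    (∀ x y, ρ x * ρ y ≤ ρ ((2 : ℝ)⁻¹ • (x + y)) ^ 2) →
    ∀ {μ : Measure (Euc n)} [IsProbabilityMeasure μ],
    μ = volume.withDensity (fun x => ENNReal.ofReal (ρ x)) →
    (∀ θ : Euc n, ‖θ‖ = 1 → ∫⁻ x, ENNReal.ofReal (Real.exp (⟪x, θ⟫ ^ 2)) ∂μ ≤ 2) →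
    1 ≤ n → Sep μ C := by
  refine ⟨100000 ^ 2 + 2, by norm_num, ?_⟩
  intro n ρ hρm hρ0 hmid μ _ hμ hsub hn
  set S := {M : ℝ | 1 ≤ M ∧ Sep μ M} with hS
  have hmono : ∀ M M', M ≤ M' → Sep μ M → Sep μ M' := fun M M' h hM A B hA hB L hL h1 h2 r hr h3 =>
    (hM A B hA hB L hL h1 h2 r hr h3).trans
      (mul_le_mul_of_nonneg_right h (by linarith [four_le_Wp (n := n) hL]))
  have hn1 : (1 : ℝ) ≤ n := by exact_mod_cast hn
  have hne : S.Nonempty := by
    refine ⟨4096 * n, by linarith, fun A B hA hB L hL hpA hpB r hr hsep => ?_⟩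
    have h := Vale.Agent.P245.separation hρm hρ0 hmid hμ one_pos (by simpa using hsub) hn hL hB hA
      ((ENNReal.ofReal_le_ofReal hpB).trans_eq (ofReal_measureReal))
      (by
        rw [show (1 / 2 : ℝ≥0∞) = ENNReal.ofReal (1 / 2) by
          rw [ENNReal.ofReal_div_of_pos two_pos, ENNReal.ofReal_one, ENNReal.ofReal_ofNat],
          ENNReal.ofReal_le_iff_le_toReal (measure_ne_top _ _)]
        exact hpA)
      hr (fun x hx y hy => by rw [norm_sub_rev]; exact hsep y hy x hx)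
    rw [one_pow, mul_one] at h
    refine h.trans ?_
    rw [mul_assoc]
    refine mul_le_mul_of_nonneg_left (max_le ?_ ?_) (by norm_num)
    · have h1 : Real.sqrt (n * L) ≤ n * L := Real.sqrt_le_iff.2
        ⟨by positivity, le_self_pow₀ (one_le_mul_of_one_le_of_one_le hn1 hL) two_ne_zero⟩
      refine h1.trans (mul_le_mul_of_nonneg_left ?_ (by linarith))
      exact le_trans (by linarith) (le_max_left _ _)
    · calc L ≤ 4 * L := by linarith
        _ ≤ Wp n L := le_max_left _ _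
        _ ≤ _ := le_mul_of_one_le_left (by linarith [four_le_Wp (n := n) hL]) hn1
  have hbdd : BddBelow S := ⟨1, fun M hM => hM.1⟩
  set m := sInf S with hm
  obtain ⟨M, hMS, hMlt⟩ := exists_lt_of_csInf_lt hne (show m < m + 1 by linarith)
  have hm1 : 1 ≤ m := le_csInf hne fun M hM => hM.1
  have hstep := sep_step hρm hρ0 hmid hμ hsub hMS.1 hMS.2
  have hs1 : 1 ≤ Real.sqrt M := Real.one_le_sqrt.2 hMS.1
  have h1 : m ≤ 100000 * Real.sqrt M := csInf_le hbdd ⟨by linarith, hstep⟩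
  have h2 : m ≤ 100000 * Real.sqrt (m + 1) :=
    h1.trans (mul_le_mul_of_nonneg_left (Real.sqrt_le_sqrt hMlt.le) (by norm_num))
  have h3 : m < 100000 ^ 2 + 1.5 := by
    have h4 := pow_le_pow_left₀ (by linarith) h2 2
    rw [mul_pow, Real.sq_sqrt (by linarith)] at h4
    nlinarith
  obtain ⟨M', hM'S, hM'lt⟩ := exists_lt_of_csInf_lt hne
    (show m < 100000 ^ 2 + 2 by linarith)
  exact hmono M' _ hM'lt.le hM'S.2

end Vale.Agent.P245.Boot
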